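import Vale.Agent.Lib.P194.Filtration

/-!
P194 (direct finiteness of group algebras).

Transfer theorem in characteristic `p`: let `K` be a ring of prime characteristic `p`
(for instance a field), `G` a group and `N` a normal subgroup of `G` which is residually a
finite `p`-group.  If `K[G/N]` is directly finite then so is `K[G]`, and if `K[G/N]` is stably
finite then so is `K[G]`.
-/

theorem Vale.Agent.Results.P194.ResiduallyPKernel.result
    (p : ℕ) [Fact p.Prime] (K : Type*) [Ring K] [CharP K p] (G : Type*) [Group G]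
    (N : Subgroup G) [N.Normal]
    (hN : ∀ n : N, n ≠ 1 → ∃ M : Subgroup N, M.Normal ∧ (∃ k : ℕ, M.index = p ^ k) ∧ n ∉ M) :
    (IsDedekindFiniteMonoid (MonoidAlgebra K (G ⧸ N)) →
      IsDedekindFiniteMonoid (MonoidAlgebra K G)) ∧
    (IsStablyFiniteRing (MonoidAlgebra K (G ⧸ N)) →
      IsStablyFiniteRing (MonoidAlgebra K G)) := by
  constructor
  · intro hQ
    exact ⟨fun hab => Vale.Agent.Lib.P194.mul_eq_one_symm_of_quotient p N hN hQ hab⟩
  · intro hQ
    exact ⟨fun n => ⟨fun hAB =>
      Vale.Agent.Lib.P194.matrix_mul_eq_one_symm p N hN (hQ.isDedekindFiniteMonoid n) hAB⟩⟩
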